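import Mathlib
import Vale.Agent.P143.Defs
import Vale.Agent.P143.Bridge
import Vale.Agent.P143.Cayley

/-!
The free uniform spanning forest is a factor of IID.
-/

open MeasureTheory unitInterval P143

open scoped Classical

namespace Vale.Agent.Results.P143.FUSFFactorOfIID

universe u

theorem result :
    (∃ Φ : (ℕ → ℕ → Bool) → (ℕ → I) → Sym2 ℕ → Bool,
      Measurable (fun p : (ℕ → ℕ → Bool) × (ℕ → I) => Φ p.1 p.2) ∧
      (∀ (π : Equiv.Perm ℕ) (A : ℕ → ℕ → Bool) (U : ℕ → I) (e : Sym2 ℕ),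
        Φ (fun a b => A (π a) (π b)) (fun v => U (π v)) e = Φ A U (Sym2.map π e)) ∧
      ∀ G : SimpleGraph ℕ, G.Connected → (∀ v, (G.neighborSet v).Finite) →
        ∀ A : ℕ → ℕ → Bool, (∀ a b, A a b = true ↔ G.Adj a b) →
          IsFreeUSF G
            ((Measure.infinitePi fun _ : ℕ => (volume : Measure I)).map (Φ A))) ∧
    (∀ (Γ : Type u) [Group Γ] (S : Finset Γ), Subgroup.closure (S : Set Γ) = ⊤ →
      ∃ Φ : (Γ → I) → Sym2 Γ → Bool,
        Measurable Φ ∧
        (∀ (γ : Γ) (U : Γ → I) (e : Sym2 Γ),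
          Φ (fun v => U (γ⁻¹ * v)) e = Φ U (Sym2.map (fun v => γ⁻¹ * v) e)) ∧
        IsFreeUSF (SimpleGraph.mulCayley (S : Set Γ))
          ((Measure.infinitePi fun _ : Γ => (volume : Measure I)).map Φ)) := by
  refine ⟨⟨Phi, measurable_Phi, fun π A U e => Phi_map π A U e,
    fun G hc hfin A hA => isFreeUSF_map_Phi hA hfin hc⟩, ?_⟩
  intro Γ _ S hS
  have := countable_of_closure hS
  let A : Γ → Γ → Bool := fun a b => decide ((SimpleGraph.mulCayley (S : Set Γ)).Adj a b)
  have hA : CodesGraph A (SimpleGraph.mulCayley (S : Set Γ)) := fun a b => by simp [A]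
  refine ⟨Phi A, measurable_Phi.comp (measurable_prodMk_left (x := A)), fun γ U e => ?_,
    isFreeUSF_map_Phi hA mulCayley_finite (mulCayley_connected hS)⟩
  have hinv : (fun a b => A (γ⁻¹ * a) (γ⁻¹ * b)) = A := by
    funext a b; simp [A]
  have h := Phi_map (Equiv.mulLeft γ⁻¹) A U e
  simp only [Equiv.coe_mulLeft, hinv] at h
  exact h

end Vale.Agent.Results.P143.FUSFFactorOfIID
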